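import Vale.Agent.Lib.P243D.Bridge

/-!
# P243: Bang's half-area question has a negative answer, and so has the stronger conjecture

Everything that is known to us about the problem in one statement: the half-area inequality fails,
the stronger directionwise inequality fails, one convex body (a regular tetrahedron) has a covering
of total base area at most `0.4999 Amin` and a covering of directionwise relative area at most
`0.434`, and hence `c_3 ≤ 0.4999 < 1 / 2` and `r_3 ≤ 0.434 < 1 / 2`.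
-/

open MeasureTheory

namespace Vale.Agent.Results.P243.BangHalfAreaRefuted

open Vale.Agent.P243D

theorem result :
    (¬ ∀ K : Set E3, IsBody K → ∀ (m : ℕ) (b : Fin m → Frame) (B : Fin m → Set (ℝ × ℝ)),
      IsCover K b B → Amin K / 2 ≤ ∑ i, volume (B i)) ∧
    (¬ ∀ K : Set E3, IsBody K → ∀ (m : ℕ) (b : Fin m → Frame) (B : Fin m → Set (ℝ × ℝ)),
      IsCover K b B → 1 / 2 ≤ rel K b B) ∧
    (∃ K : Set E3, IsBody K ∧ 0 < Amin K ∧ Amin K < ⊤ ∧
      (∃ (m : ℕ) (b : Fin m → Frame) (B : Fin m → Set (ℝ × ℝ)),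
        IsCover K b B ∧ ∑ i, volume (B i) ≤ 4999 / 10000 * Amin K) ∧
      (∃ (m : ℕ) (b : Fin m → Frame) (B : Fin m → Set (ℝ × ℝ)),
        IsCover K b B ∧ rel K b B ≤ 434 / 1000)) ∧
    c3 ≤ 4999 / 10000 ∧ r3 ≤ 434 / 1000 := by
  have hK : IsBody Vale.Agent.P243.tet := Vale.Agent.P243.tet_body
  have h0 : 0 < Amin Vale.Agent.P243.tet :=
    (ENNReal.ofReal_pos.2 Vale.Agent.P243.Amin_tet_pos).trans_le (ofReal_Amin_le _)
  have h1 : Amin Vale.Agent.P243.tet ≠ ⊤ := Amin_lt_top Vale.Agent.P243.Amin_tet_pos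
  obtain ⟨m, b, B, hB, hs⟩ := cover_abs
  obtain ⟨m', b', B', hB', hs'⟩ := cover_rel
  refine ⟨fun h => ?_, fun h => ?_, ⟨_, hK, h0, lt_top_iff_ne_top.2 h1, ⟨m, b, B, hB, hs⟩,
    ⟨m', b', B', hB', hs'⟩⟩, ?_, ?_⟩
  · have h2 := (h _ hK m b B hB).trans hs
    have h3 : (4999 / 10000 : ENNReal) ≠ ⊤ := ENNReal.div_ne_top (by norm_num) (by norm_num)
    have h4 := ENNReal.toReal_mono (ENNReal.mul_ne_top h3 h1) h2
    have h5 := ENNReal.toReal_pos h0.ne' h1
    rw [ENNReal.toReal_div, ENNReal.toReal_mul, ENNReal.toReal_div] at h4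
    norm_num at h4
    linarith
  · have h2 := (h _ hK m' b' B' hB').trans hs'
    have h3 : (434 / 1000 : ENNReal) ≠ ⊤ := ENNReal.div_ne_top (by norm_num) (by norm_num)
    have h4 := ENNReal.toReal_mono h3 h2
    rw [ENNReal.toReal_div, ENNReal.toReal_div] at h4
    norm_num at h4
  · refine (iInf_le_of_le _ <| iInf_le_of_le hK <| iInf_le_of_le m <| iInf_le_of_le b <|
      iInf_le_of_le B <| iInf_le_of_le hB ?_)
    exact ENNReal.div_le_of_le_mul hs
  · exact (iInf_le_of_le _ <| iInf_le_of_le hK <| iInf_le_of_le m' <| iInf_le_of_le b' <|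
      iInf_le_of_le B' <| iInf_le_of_le hB' hs')

end Vale.Agent.Results.P243.BangHalfAreaRefuted
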