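import Vale.Agent.Lib.P243.Abs.Main
import Vale.Agent.Lib.P243.StrongForm

/-!
# P243: Bang's half-area statement is false

A regular tetrahedron in `ℝ³` is covered by finitely many cylinders whose total base area is at most
`0.4999` times the smallest area of an orthogonal projection of the tetrahedron.
-/

open scoped BigOperators

namespace Vale.Agent.Results.P243.HalfAreaFalse

open Vale.Agent.P243

/-- Bang's half-area statement is false, in the absolute form (Q1) and in the directionwise
relative form; moreover `c_3 ≤ 4999 / 10000 < 1 / 2` and `r_3 ≤ 691 / 1440 < 1 / 2`. -/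
theorem result :
    (¬ ∀ (K : Set E3), IsConvexBody K → ∀ (m : ℕ) (C : Fin m → Cylinder E3),
        K ⊆ ⋃ i, (C i).carrier → 1 / 2 * Amin K ≤ totalArea C) ∧
    (¬ ∀ (K : Set E3), IsConvexBody K → ∀ (m : ℕ) (C : Fin m → Cylinder E3),
        K ⊆ ⋃ i, (C i).carrier → 1 / 2 ≤ relSum C K) ∧
    (∃ K : Set E3, IsConvexBody K ∧ 0 < Amin K ∧ ∃ (m : ℕ) (C : Fin m → Cylinder E3),
        K ⊆ ⋃ i, (C i).carrier ∧ totalArea C ≤ 4999 / 10000 * Amin K) ∧
    c3 ≤ 4999 / 10000 ∧ r3 ≤ 691 / 1440 := by
  refine ⟨fun h => ?_, fun h => ?_, ⟨tet, tet_body, Amin_tet_pos, 10000 + 10000, fans 10000,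
    fans_cover 10000 (by norm_num), fans_total⟩, c3_le, r3_le⟩
  · have h1 := h tet tet_body (10000 + 10000) (fans 10000) (fans_cover 10000 (by norm_num))
    have h2 := half_area_false
    linarith
  · have h1 := h tetra tetra_body (5 + 5) ten ten_cover
    have h2 := ten_sum
    have h3 : (691 : ℝ) / 1440 < 1 / 2 := by norm_num
    linarith

end Vale.Agent.Results.P243.HalfAreaFalse
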