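import Vale.Agent.Lib.P243.Rel.Fan

/-!
# P243: Bang's half-area statement is false, with sharper bounds for `r_3`

A regular tetrahedron in `ℝ³` is covered by finitely many cylinders with total base area at most
`0.4999 Amin`, and by finitely many cylinders with directionwise relative area at most `0.434`.
-/

open scoped BigOperators

namespace Vale.Agent.Results.P243.HalfAreaFalseSharp

open Vale.Agent.P243

/-- For one convex body `K` (a regular tetrahedron) there are a finite covering by cylinders with
total base area at most `0.4999 Amin K < Amin K / 2` and a finite covering by cylinders with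
directionwise relative area at most `0.434`; hence `c_3 ≤ 0.4999 < 1 / 2` and `r_3 ≤ 0.434`. -/
theorem result :
    (∃ K : Set E3, IsConvexBody K ∧ 0 < Amin K ∧
      (∃ (m : ℕ) (C : Fin m → Cylinder E3),
        K ⊆ ⋃ i, (C i).carrier ∧ totalArea C ≤ 4999 / 10000 * Amin K) ∧
      (∃ (m : ℕ) (C : Fin m → Cylinder E3),
        K ⊆ ⋃ i, (C i).carrier ∧ relSum C K ≤ 434 / 1000)) ∧
    c3 ≤ 4999 / 10000 ∧ r3 ≤ 434 / 1000 :=
  ⟨⟨tet, tet_body, Amin_tet_pos,
    ⟨10000 + 10000, fans 10000, fans_cover 10000 (by norm_num), fans_total⟩,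
    ⟨10000 + 10000, fansR 10000, fansR_cover 10000 (by norm_num), fansR_rel 10000 le_rfl⟩⟩,
    c3_le, r3_le_fan⟩

end Vale.Agent.Results.P243.HalfAreaFalseSharp
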