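import Vale.Agent.Lib.P243.StrongForm

/-!
# P243: the stronger form of the half-area statement (the 1-codimensional cylinder covering
conjecture) is false in dimension three, and `r_3 ≤ 691 / 1440 < 1 / 2`
-/

open scoped BigOperators

namespace Vale.Agent.Results.P243.StrongFormFalse

open Vale.Agent.P243

/-- The 1-codimensional cylinder covering conjecture is false in dimension three: a tetrahedron
is covered by ten cylinders whose directionwise relative area is at most `691 / 1440`, which is
smaller than `1 / 2`; hence `r_3 ≤ 691 / 1440 < 1 / 2`. -/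
theorem result :
    (¬ ∀ (K : Set E3), IsConvexBody K → ∀ (m : ℕ) (C : Fin m → Cylinder E3),
        K ⊆ ⋃ i, (C i).carrier → 1 / 2 ≤ relSum C K) ∧
    (∃ K : Set E3, IsConvexBody K ∧ ∃ (m : ℕ) (C : Fin m → Cylinder E3),
        K ⊆ ⋃ i, (C i).carrier ∧ relSum C K ≤ 691 / 1440) ∧
    r3 ≤ 691 / 1440 ∧ r3 < 1 / 2 := by
  refine ⟨fun h => ?_, ⟨tetra, tetra_body, 5 + 5, ten, ten_cover, ten_sum⟩, r3_le,
    lt_of_le_of_lt r3_le (by norm_num)⟩
  have h1 := h tetra tetra_body (5 + 5) ten ten_cover
  have h2 := ten_sum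
  have h3 : (691 : ℝ) / 1440 < 1 / 2 := by norm_num
  linarith

end Vale.Agent.Results.P243.StrongFormFalse
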